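import Vale.Agent.Lib.P012_helper5.Defs

/-!
# P012c, module N4 : `bad2_count`
-/

namespace Vale.Agent.Lib.P012c.H14

open Finset
open Vale.Agent.Lib.P012b

/-- initial sums of binomial coefficients -/
theorem sum_choose_le (s K : ℕ) : ∑ j ∈ range (K + 1), s.choose j ≤ (s + 1) ^ K := by
  induction K with
  | zero => simp
  | succ K ih =>
    rw [Finset.sum_range_succ']
    have h1 : ∑ j ∈ range (K + 1), s.choose (j + 1) ≤ ∑ j ∈ range (K + 1), s * s.choose j := by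
      apply Finset.sum_le_sum
      intro j _
      have h := Nat.choose_succ_right_eq s j
      calc s.choose (j + 1) ≤ s.choose (j + 1) * (j + 1) := Nat.le_mul_of_pos_right _ (by omega)
        _ = s.choose j * (s - j) := h
        _ ≤ s.choose j * s := Nat.mul_le_mul_left _ (Nat.sub_le _ _)
        _ = s * s.choose j := Nat.mul_comm _ _
    rw [← Finset.mul_sum] at h1
    have h2 : 1 ≤ ∑ j ∈ range (K + 1), s.choose j := by
      calc 1 = s.choose 0 := by simp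
        _ ≤ ∑ j ∈ range (K + 1), s.choose j :=
          Finset.single_le_sum (f := fun j => s.choose j) (fun _ _ => Nat.zero_le _)
            (Finset.mem_range.mpr (by omega))
    simp only [Nat.choose_zero_right]
    calc ∑ j ∈ range (K + 1), s.choose (j + 1) + 1
        ≤ s * ∑ j ∈ range (K + 1), s.choose j + ∑ j ∈ range (K + 1), s.choose j := by omega
      _ = (s + 1) * ∑ j ∈ range (K + 1), s.choose j := by ring
      _ ≤ (s + 1) * (s + 1) ^ K := Nat.mul_le_mul_left _ ih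
      _ = (s + 1) ^ (K + 1) := by ring

/-- number of subsets of size at most `K` -/
theorem card_small_subsets (S : Finset ℕ) (K : ℕ) :
    (S.powerset.filter fun Q => Q.card ≤ K).card ≤ (S.card + 1) ^ K := by
  have h1 : (S.powerset.filter fun Q => Q.card ≤ K).card
      = ∑ j ∈ range (K + 1), ((S.powerset.filter fun Q => Q.card ≤ K).filter
          fun Q => Q.card = j).card := by
    apply Finset.card_eq_sum_card_fiberwise
    intro Q hQ
    have := (Finset.mem_filter.mp hQ).2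
    simp only [Finset.coe_range, Set.mem_Iio]
    omega
  rw [h1]
  refine le_trans (Finset.sum_le_sum ?_) (sum_choose_le S.card K)
  intro j _
  rw [← Finset.card_powersetCard]
  apply Finset.card_le_card
  intro Q hQ
  rw [Finset.mem_filter, Finset.mem_filter, Finset.mem_powerset] at hQ
  rw [Finset.mem_powersetCard]
  exact ⟨hQ.1.1, hQ.2⟩

/-- a positive number below `2 ^ w` has at most `w` prime factors -/
theorem card_primeFactors_le_of_lt (D w : ℕ) (hD : 0 < D) (hw : D < 2 ^ w) :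
    D.primeFactors.card ≤ w := by
  have h1 : 2 ^ D.primeFactors.card ≤ ∏ p ∈ D.primeFactors, p :=
    Finset.pow_card_le_prod _ _ _ fun p hp => (Nat.prime_of_mem_primeFactors hp).two_le
  have h2 : ∏ p ∈ D.primeFactors, p ≤ D := Nat.le_of_dvd hD (Nat.prod_primeFactors_dvd D)
  have h3 : 2 ^ D.primeFactors.card < 2 ^ w := by omega
  exact le_of_lt ((Nat.pow_lt_pow_iff_right (by norm_num)).mp h3)

/-- double counting: sum of the collision numbers over a family of small sets of primes -/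
theorem sum_coll_le (A : Finset ℕ) (w K : ℕ) (hA : ∀ a ∈ A, a < 2 ^ w)
    (QQ : Finset (Finset ℕ)) (hp : ∀ Q ∈ QQ, ∀ q ∈ Q, q.Prime) (hK : ∀ Q ∈ QQ, Q.card ≤ K) :
    ∑ Q ∈ QQ, coll Q A ≤ A.card ^ 2 * (w + 1) ^ K := by
  unfold coll
  have h1 : ∀ Q ∈ QQ, (A.offDiag.filter
      (fun p => ∀ q ∈ Q, (q : ℤ) ∣ (p.1 : ℤ) - (p.2 : ℤ))).card
      = ∑ p ∈ A.offDiag, if (∀ q ∈ Q, (q : ℤ) ∣ (p.1 : ℤ) - (p.2 : ℤ)) then 1 else 0 := by
    intro Q _
    rw [Finset.card_filter]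
  rw [Finset.sum_congr rfl h1, Finset.sum_comm]
  have h2 : ∀ p ∈ A.offDiag,
      ∑ Q ∈ QQ, (if (∀ q ∈ Q, (q : ℤ) ∣ (p.1 : ℤ) - (p.2 : ℤ)) then 1 else 0) ≤ (w + 1) ^ K := by
    intro p hp'
    rw [Finset.mem_offDiag] at hp'
    obtain ⟨ha, hb, hne⟩ := hp'
    rw [← Finset.card_filter]
    set D := ((p.1 : ℤ) - (p.2 : ℤ)).natAbs with hD
    have hDpos : 0 < D := by
      rw [hD, Int.natAbs_pos]
      intro h0
      apply hne
      have : (p.1 : ℤ) = p.2 := by omega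
      exact_mod_cast this
    have hDlt : D < 2 ^ w := by
      have h3 := hA _ ha
      have h4 := hA _ hb
      omega
    have hsub : (QQ.filter fun Q : Finset ℕ => ∀ q ∈ Q, ((q : ℕ) : ℤ) ∣ (p.1 : ℤ) - (p.2 : ℤ)) ⊆
        (D.primeFactors.powerset.filter fun Q => Q.card ≤ K) := by
      intro Q hQ
      rw [Finset.mem_filter] at hQ
      rw [Finset.mem_filter, Finset.mem_powerset]
      refine ⟨?_, hK Q hQ.1⟩
      intro q hq
      rw [Nat.mem_primeFactors]
      refine ⟨hp Q hQ.1 q hq, ?_, hDpos.ne'⟩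
      have := hQ.2 q hq
      rw [hD]
      exact Int.natCast_dvd.mp this
    calc (QQ.filter fun Q : Finset ℕ => ∀ q ∈ Q, ((q : ℕ) : ℤ) ∣ (p.1 : ℤ) - (p.2 : ℤ)).card
        ≤ (D.primeFactors.powerset.filter fun Q => Q.card ≤ K).card := Finset.card_le_card hsub
      _ ≤ (D.primeFactors.card + 1) ^ K := card_small_subsets _ _
      _ ≤ (w + 1) ^ K := Nat.pow_le_pow_left
          (by have := card_primeFactors_le_of_lt D w hDpos hDlt; omega) _
  calc ∑ p ∈ A.offDiag, ∑ Q ∈ QQ,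
        (if (∀ q ∈ Q, (q : ℤ) ∣ (p.1 : ℤ) - (p.2 : ℤ)) then 1 else 0)
      ≤ ∑ _p ∈ A.offDiag, (w + 1) ^ K := Finset.sum_le_sum h2
    _ = A.offDiag.card * (w + 1) ^ K := by rw [Finset.sum_const, smul_eq_mul]
    _ ≤ A.card ^ 2 * (w + 1) ^ K := by
        apply Nat.mul_le_mul_right
        rw [Finset.offDiag_card]
        have : A.card * A.card = A.card ^ 2 := by ring
        omega

/-- failure of `NB` for a large modulus gives many collisions -/
theorem coll_large (A Q : Finset ℕ) (θ : ℕ) (hθ : 0 < θ) (hm : θ ^ 4 < ∏ q ∈ Q, q)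
    (hNB : ¬ NB Q A) : A.card ^ 2 * θ ≤ coll Q A * ∏ q ∈ Q, q := by
  by_contra hcon
  push Not at hcon
  apply hNB
  unfold NB
  set m := ∏ q ∈ Q, q with hmdef
  set c := coll Q A with hc
  have h1 : (c * m) ^ 4 ≤ (A.card ^ 2 * θ) ^ 4 := Nat.pow_le_pow_left hcon.le 4
  have h2 : c ^ 4 * m ^ 3 * θ ^ 4 ≤ c ^ 4 * m ^ 3 * m := Nat.mul_le_mul_left _ hm.le
  have h3 : c ^ 4 * m ^ 3 * θ ^ 4 ≤ A.card ^ 8 * θ ^ 4 := by
    calc c ^ 4 * m ^ 3 * θ ^ 4 ≤ c ^ 4 * m ^ 3 * m := h2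
      _ = (c * m) ^ 4 := by ring
      _ ≤ (A.card ^ 2 * θ) ^ 4 := h1
      _ = A.card ^ 8 * θ ^ 4 := by ring
  exact Nat.le_of_mul_le_mul_right h3 (by positivity)

theorem bad2_count (A : Finset ℕ) (w K θ X : ℕ) (hA : ∀ a ∈ A, a < 2 ^ w)
    (hθ : (w + 1) ^ K * 2 ^ 15 ≤ θ) (T : Finset ℕ) (hT : T ⊆ Icc 1 X)
    (h : ∀ g ∈ T, g.primeFactors.card ≤ K ∧ ∃ Q ⊆ g.primeFactors,
      θ ^ 4 < ∏ q ∈ Q, q ∧ ¬ NB Q A) :
    T.card * 2 ^ 15 ≤ X := by
  classical
  have hwK : 0 < (w + 1) ^ K := by positivity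
  have hθpos : 0 < θ := by
    have : 0 < (w + 1) ^ K * 2 ^ 15 := by positivity
    omega
  -- the family of bad sets of primes
  set QQ : Finset (Finset ℕ) := ((Icc 1 X).biUnion fun g => g.primeFactors.powerset).filter
    (fun Q => Q.card ≤ K ∧ θ ^ 4 < ∏ q ∈ Q, q ∧ ¬ NB Q A) with hQQ
  have hQQp : ∀ Q ∈ QQ, ∀ q ∈ Q, q.Prime := by
    intro Q hQ q hq
    rw [hQQ, Finset.mem_filter, Finset.mem_biUnion] at hQ
    obtain ⟨⟨g, _, hg⟩, _⟩ := hQ
    rw [Finset.mem_powerset] at hg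
    exact Nat.prime_of_mem_primeFactors (hg hq)
  have hQQK : ∀ Q ∈ QQ, Q.card ≤ K := by
    intro Q hQ
    rw [hQQ, Finset.mem_filter] at hQ
    exact hQ.2.1
  have hcover : T ⊆ QQ.biUnion fun Q => (Icc 1 X).filter fun g => (∏ q ∈ Q, q) ∣ g := by
    intro g hg
    obtain ⟨hgK, Q, hQsub, hQm, hQNB⟩ := h g hg
    rw [Finset.mem_biUnion]
    refine ⟨Q, ?_, ?_⟩
    · rw [hQQ, Finset.mem_filter, Finset.mem_biUnion]
      exact ⟨⟨g, hT hg, Finset.mem_powerset.mpr hQsub⟩,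
        le_trans (Finset.card_le_card hQsub) hgK, hQm, hQNB⟩
    · rw [Finset.mem_filter]
      exact ⟨hT hg, dvd_trans (Finset.prod_dvd_prod_of_subset _ _ _ hQsub)
        (Nat.prod_primeFactors_dvd g)⟩
  have hcard : T.card ≤ ∑ Q ∈ QQ, X / ∏ q ∈ Q, q := by
    calc T.card ≤ (QQ.biUnion fun Q => (Icc 1 X).filter fun g => (∏ q ∈ Q, q) ∣ g).card :=
          Finset.card_le_card hcover
      _ ≤ ∑ Q ∈ QQ, ((Icc 1 X).filter fun g => (∏ q ∈ Q, q) ∣ g).card := Finset.card_biUnion_le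
      _ = ∑ Q ∈ QQ, X / ∏ q ∈ Q, q := by
          apply Finset.sum_congr rfl
          intro Q _
          have : Icc 1 X = Ioc 0 X := by
            ext x
            simp only [Finset.mem_Icc, Finset.mem_Ioc]
            omega
          rw [this, Nat.Ioc_filter_dvd_card_eq_div]
  have hmain : T.card * (A.card ^ 2 * θ) ≤ X * (A.card ^ 2 * (w + 1) ^ K) := by
    calc T.card * (A.card ^ 2 * θ) ≤ (∑ Q ∈ QQ, X / ∏ q ∈ Q, q) * (A.card ^ 2 * θ) :=
          Nat.mul_le_mul_right _ hcard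
      _ = ∑ Q ∈ QQ, (X / ∏ q ∈ Q, q) * (A.card ^ 2 * θ) := Finset.sum_mul _ _ _
      _ ≤ ∑ Q ∈ QQ, X * coll Q A := by
          apply Finset.sum_le_sum
          intro Q hQ
          rw [hQQ, Finset.mem_filter] at hQ
          have h1 := coll_large A Q θ hθpos hQ.2.2.1 hQ.2.2.2
          calc (X / ∏ q ∈ Q, q) * (A.card ^ 2 * θ)
              ≤ (X / ∏ q ∈ Q, q) * (coll Q A * ∏ q ∈ Q, q) := Nat.mul_le_mul_left _ h1
            _ = ((X / ∏ q ∈ Q, q) * ∏ q ∈ Q, q) * coll Q A := by ring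
            _ ≤ X * coll Q A := Nat.mul_le_mul_right _ (Nat.div_mul_le_self _ _)
      _ = X * ∑ Q ∈ QQ, coll Q A := (Finset.mul_sum _ _ _).symm
      _ ≤ X * (A.card ^ 2 * (w + 1) ^ K) :=
          Nat.mul_le_mul_left _ (sum_coll_le A w K hA QQ hQQp hQQK)
  rcases Nat.eq_zero_or_pos A.card with hA0 | hApos
  · -- no bad set exists when `A` is empty
    rcases Finset.eq_empty_or_nonempty T with hTe | ⟨g, hg⟩
    · rw [hTe]
      simp
    · exfalso
      obtain ⟨_, Q, _, _, hQNB⟩ := h g hg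
      apply hQNB
      unfold NB coll
      rw [Finset.card_eq_zero.mp hA0]
      simp
  · have hA2 : 0 < A.card ^ 2 := by positivity
    have h1 : A.card ^ 2 * (T.card * θ) ≤ A.card ^ 2 * (X * (w + 1) ^ K) := by
      calc A.card ^ 2 * (T.card * θ) = T.card * (A.card ^ 2 * θ) := by ring
        _ ≤ X * (A.card ^ 2 * (w + 1) ^ K) := hmain
        _ = A.card ^ 2 * (X * (w + 1) ^ K) := by ring
    have h2 : T.card * θ ≤ X * (w + 1) ^ K := Nat.le_of_mul_le_mul_left h1 hA2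
    have h3 : (T.card * 2 ^ 15) * (w + 1) ^ K ≤ X * (w + 1) ^ K := by
      calc (T.card * 2 ^ 15) * (w + 1) ^ K = T.card * ((w + 1) ^ K * 2 ^ 15) := by ring
        _ ≤ T.card * θ := Nat.mul_le_mul_left _ hθ
        _ ≤ X * (w + 1) ^ K := h2
    exact Nat.le_of_mul_le_mul_right h3 hwK

end Vale.Agent.Lib.P012c.H14
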